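import Vale.Agent.P267.H815.H0
import Vale.Agent.P267.H365.Dual
import Vale.Agent.P267.H399.LBCalc
import Vale.Agent.P290.H445.Coh

/-!
# P290 / H561: `C² ≥ -2` for an irreducible curve on a K3 surface

`D : EffDiv X` with regular part `D.supp \ Sing D` preconnected and dense in `D.supp`, `Sing D`
countable. (1) `H¹(X, 𝒪(-D)) = 0` if `H¹(X, 𝒪) = 0`. (2) On a K3 surface: `D² ≥ -2`.
-/

set_option linter.unusedVariables false
set_option linter.unusedSectionVars false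

open scoped Manifold ContDiff ComplexConjugate Topology
open Set Filter

noncomputable section

namespace Vale.Agent.P290.H561

open Vale.Agent.P267 Vale.Agent.P267.FL Vale.Agent.P267.RR

/-- the hypotheses on the curve -/
structure IsCurve {X : Type*} [TopologicalSpace X] [ChartedSpace C2 X] (D : EffDiv X) : Prop where
  conn : IsPreconnected (D.supp \ H815.Sing D)
  sing : (H815.Sing D).Countable
  dense : D.supp ⊆ closure (D.supp \ H815.Sing D)

/-- `H^{0,1} = 0` -/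
def HH01 (X : Type*) [TopologicalSpace X] [ChartedSpace C2 X] : Prop :=
  ∀ a : X → Fin 2 → ℂ, Reg1 ∞ 0 a → (∀ x, dbar1 0 a x = 0) →
    ∃ u : X → ℂ, Reg0 ∞ 0 u ∧ ∀ x i, dbar0 0 u x i = a x i

section general

variable {X : Type*} [TopologicalSpace X] [ChartedSpace C2 X] [IsManifold 𝓘(ℂ, C2) ω X]
  {ι : Type} [Fintype ι] [DecidableEq ι] {D : EffDiv X}

/-- `H¹(X, 𝒪(-D)) = 0` -/
theorem exact_dual [CompactSpace X] [T2Space X] (h01 : HH01 X) (hD : IsCurve D)
    (A : H451.DivLB D ι) {w : X → Fin 2 → EuclideanSpace ℂ ι} (hw : w ∈ A1 A.L.dual 0)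
    (h1 : A.L.dual.db1 (-A.a) 0 w = 0) :
    ∃ t ∈ A0 A.L.dual 0, A.L.dual.db0 (-A.a) 0 t = w := by
  have m1 := H365.pair1_mem A 0 hw
  have hreg : Reg1 ∞ 0 (H365.pair1 A w) := (H365.mem_I1.1 m1).1
  have hcl : ∀ x, dbar1 0 (H365.pair1 A w) x = 0 := by
    intro x
    rw [H365.dbar1_pair A 0 hw, h1]
    simp [H365.pair0, H365.pr_zero_left]
  obtain ⟨u, hu, hu2⟩ := h01 _ hreg hcl
  have hu3 : dbar0 0 u = H365.pair1 A w := by
    funext x i
    exact hu2 x i
  have hI : H815.I1 D (dbar0 0 u) := by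
    intro x
    obtain ⟨b, hb1, hb2⟩ := (H365.mem_I1.1 m1).2 x
    refine ⟨b, ?_⟩
    filter_upwards [hb1, hb2] with y h2 h3
    refine ⟨h2, ?_⟩
    funext p
    rw [hu3, h3 p]
    rfl
  obtain ⟨c, hc⟩ := H815.h0_const D hD.conn hD.sing hD.dense hu hI
  have hr : Reg0 ∞ 0 (fun x => u x - c) := by
    intro e he
    have h2 := hu e he
    rw [LB.loc0_zero] at h2 ⊢
    exact h2.sub contDiffOn_const
  have hI0 : (fun x => u x - c) ∈ H365.I0 D 0 := by
    refine H365.mem_I0.2 ⟨hr, fun x => ?_⟩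
    obtain ⟨b, hb⟩ := hc x
    refine ⟨b, ?_, ?_⟩
    · filter_upwards [hb] with y hy using hy.1
    · filter_upwards [hb] with y hy using hy.2
  obtain ⟨t, ht, ht2⟩ := H365.pair0_surj A 0 hI0
  refine ⟨t, ht, ?_⟩
  have h3 : dbar0 0 (fun x => u x - c) = dbar0 0 u := by
    funext x i
    have hd : DifferentiableAt ℝ (loc0 0 (chartAt C2 x) u) (chartAt C2 x x) :=
      RR.Reg0.differentiableAt hu x
    have h4 : loc0 0 (chartAt C2 x) (fun x => u x - c) =
        fun z => loc0 0 (chartAt C2 x) u z - (fun _ => c) z := by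
      funext z
      simp [loc0]
    rw [dbar0, h4, FL.dzb_sub hd (differentiableAt_const _), dzb_const, sub_zero]
    rfl
  have h5 : H365.pair1 A (A.L.dual.db0 (-A.a) 0 t) = H365.pair1 A w := by
    rw [← H365.dbar0_pair A 0 ht, ht2, h3, hu3]
  have ha : Reg1 ∞ 0 (-A.a) := by
    have := RR.Reg1.smul (-1 : ℂ) A.hol.smooth
    rwa [neg_one_smul] at this
  have h6 : A.L.dual.db0 (-A.a) 0 t ∈ A1 A.L.dual 0 :=
    (mem_A1 _ _).2 ⟨LB.reg1_db0 ha ht.1, LB.Sec.db0 A.L.dual ht.2⟩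
  have h7 : A.L.dual.db0 (-A.a) 0 t - w ∈ A1 A.L.dual 0 := Submodule.sub_mem _ h6 hw
  have h8 : H365.pair1 A (A.L.dual.db0 (-A.a) 0 t - w) = 0 := by
    have h9 : H365.pair1 A (A.L.dual.db0 (-A.a) 0 t - w) =
        H365.pair1 A (A.L.dual.db0 (-A.a) 0 t) - H365.pair1 A w := by
      funext y p
      exact H365.pr_sub_left _ _ _
    rw [h9, h5, sub_self]
  exact sub_eq_zero.1 (H365.pair1_inj A 0 h7 h8)

/-- the canonical section is a nonzero holomorphic section -/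
theorem section_ne_zero [Nonempty X] (A : H451.DivLB D ι) : A.s ≠ 0 := by
  intro h
  obtain ⟨x⟩ := ‹Nonempty X›
  obtain ⟨z, hz, hzU⟩ := ((H365.freq_ne (D := D) x).and_eventually
    (H365.U_nhds (D.mem x))).exists
  exact (H365.s_ne_iff A hzU).2 hz (congrFun h z)

theorem section_mem (A : H451.DivLB D ι) : A.s ∈ H0 A.L A.a 0 :=
  (mem_H0 _ _ _).2 ⟨⟨A.s_reg, A.s_sec⟩, by funext x i; exact A.s_hol x i⟩

end general

section K3

variable (X : All.K3) {ι : Type} [Fintype ι] [DecidableEq ι] {D : EffDiv X.X}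

/-- `h¹(𝒪(D)) = 0` -/
theorem h1_div_zero (hS : SerreStmt X.X) (h01 : H445.H01 X) (hD : IsCurve D)
    (A : H451.DivLB D ι) : RR.h1 A.L A.a 0 = 0 := by
  rw [(hS ι A.L A.a A.hol 0).2.1, sub_zero]
  have hss : Subsingleton (RR.H1 A.L.dual (-A.a) 1) := by
    rw [Submodule.Quotient.subsingleton_iff, Submodule.comap_subtype_eq_top]
    intro w hw
    obtain ⟨⟨h1, h2⟩, h3⟩ := (mem_Z1 _ _ _).1 hw
    set w' : X.X → Fin 2 → EuclideanSpace ℂ ι := fun x i => H445.OmI X x • w x i with hw'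
    have e1 : (-1 : ℤ) + 1 = 0 := by norm_num
    have h4 : Reg1 ∞ 0 w' := by
      have := H445.Reg1.smul' (H445.Reg0_OmI X) h1
      rwa [e1] at this
    have h5 : w' ∈ A1 A.L.dual 0 := (mem_A1 _ _).2 ⟨h4, fun x i => by
      rw [hw']
      simp only
      rw [RR.act_smul, h2 x i]⟩
    have h6 : A.L.dual.db1 (-A.a) 0 w' = 0 := by
      funext x
      have h7 := H445.db1_mul X A.L.dual (-A.a) (H445.HolOn_OmI X) h1 x
      rw [e1, h3] at h7
      rw [hw', h7]
      simp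
    obtain ⟨t, ht, ht2⟩ := exact_dual h01 hD A h5 h6
    refine (mem_B1 _ _ _).2 ⟨fun x => H445.Om X x • t x, ⟨?_, fun x => ?_⟩, ?_⟩
    · have := H445.Reg0.smul' (H445.Reg0_Om X) ht.1
      rwa [add_zero] at this
    · rw [RR.act_smul, ht.2 x]
    · funext x i
      have h7 := H445.db0_mul X A.L.dual (-A.a) (H445.HolOn_Om X) ht.1 x i
      rw [add_zero, ht2] at h7
      rw [h7, hw']
      simp only
      rw [smul_smul, H445.Om_mul, one_smul]
  exact Module.finrank_zero_of_subsingleton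

/-- **`D² ≥ -2`** -/
theorem self_isec (hF : FiniteStmt X.X) (hS : SerreStmt X.X) (hR : RRStmt X.X)
    (h01 : H445.H01 X) (hD : IsCurve D) (A : H451.DivLB D ι) :
    ∃ n : ℤ, isec A.L A.L = 2 * n ∧ -1 ≤ n := by
  obtain ⟨n, e1, -, e3⟩ := H445.rr_ineq X hS hR h01 A.L A.hol
  refine ⟨n, e1, ?_⟩
  rw [h1_div_zero X hS h01 hD A] at e3
  have h2 : 1 ≤ RR.h0 A.L A.a 0 := by
    have := (hF ι A.L A.a A.hol 0).1
    have hnt : Nontrivial (H0 A.L A.a 0) := by
      refine ⟨⟨⟨A.s, section_mem A⟩, 0, fun h => section_ne_zero A ?_⟩⟩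
      exact congrArg Subtype.val h
    exact Nat.succ_le_of_lt Module.finrank_pos
  have h3 : (1 : ℤ) ≤ RR.h0 A.L A.a 0 := by exact_mod_cast h2
  have h4 : (0 : ℤ) ≤ RR.h0 A.L.dual (-A.a) 0 := Int.natCast_nonneg _
  push_cast at e3
  linarith

theorem self_isec_re (hF : FiniteStmt X.X) (hS : SerreStmt X.X) (hR : RRStmt X.X)
    (h01 : H445.H01 X) (hD : IsCurve D) (A : H451.DivLB D ι) : -2 ≤ (isec A.L A.L).re := by
  obtain ⟨n, e1, h⟩ := self_isec X hF hS hR h01 hD A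
  rw [e1]
  have h2 : ((2 : ℂ) * (n : ℂ)).re = 2 * n := by simp
  rw [h2]
  have h3 : (-1 : ℝ) ≤ n := by exact_mod_cast h
  linarith

end K3

end Vale.Agent.P290.H561
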